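import Vale.Agent.P139Z.IntM.Conc

/-! The interior multiplier estimate: the integrated inequalities. -/

open Set Filter Topology MeasureTheory Complex
open scoped ComplexConjugate ContDiff

namespace Vale.Agent.P139Z.IntM

theorem continuousOn_flx {L : ℝ} {lam : ℂ} {α η α₁ η₁ : ℝ → ℂ} {w v P s : ℝ → ℝ} {S : Set ℝ}
    (hα : ContinuousOn α S) (hη : ContinuousOn η S) (hα₁ : ContinuousOn α₁ S)
    (hη₁ : ContinuousOn η₁ S) (hw : ContinuousOn w S) (hw₁ : ContinuousOn (fun x => w x / x) S)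
    (hv : ContinuousOn v S) (hP : ContinuousOn P S) (hs : ContinuousOn s S) :
    ContinuousOn (flx L lam α η α₁ η₁ w v P s) S := by
  have hx : ContinuousOn (fun x => x * w x) S := continuousOn_id.mul hw
  have hc : ContinuousOn (fun x => 6 + s x) S := continuousOn_const.add hs
  exact (((((((hx.div_const 2).mul ((continuousOn_ip hη₁ hη₁).add (continuousOn_ip hα₁ hα₁))).sub
    (((continuousOn_const.mul hw₁).div_const 2).mul
      ((continuousOn_ip hη hη).add (continuousOn_ip hα hα)))).add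
    ((hw.mul hc).mul ((continuousOn_ip hη₁ hη).add (continuousOn_ip hα₁ hα)))).add
    (((hw.mul hv).mul hc).mul (continuousOn_ip hα hη))).sub
    ((continuousOn_const.mul hx).mul (continuousOn_iq hα hη))).sub
    ((continuousOn_const.mul hx).mul (continuousOn_ip hα hη))).sub
    (((hx.mul hP).div_const 2).mul (continuousOn_ip hα hα))

theorem int_comb {A₁ A₂ A₃ A₄ A₅ A₆ A₇ : ℝ → ℝ} {a b : ℝ} (h₁ : IntervalIntegrable A₁ volume a b)
    (h₂ : IntervalIntegrable A₂ volume a b) (h₃ : IntervalIntegrable A₃ volume a b)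
    (h₄ : IntervalIntegrable A₄ volume a b) (h₅ : IntervalIntegrable A₅ volume a b)
    (h₆ : IntervalIntegrable A₆ volume a b) (h₇ : IntervalIntegrable A₇ volume a b) (ε δ D S : ℝ) :
    ∫ x in a..b, (A₁ x + A₂ x - ε * (A₃ x + A₄ x) - δ * (A₁ x + A₅ x)
        - D * (A₄ x + A₆ x + A₇ x * S)) =
      (∫ x in a..b, A₁ x) + (∫ x in a..b, A₂ x) - ε * ((∫ x in a..b, A₃ x) + ∫ x in a..b, A₄ x)
        - δ * ((∫ x in a..b, A₁ x) + ∫ x in a..b, A₅ x)
        - D * ((∫ x in a..b, A₄ x) + (∫ x in a..b, A₆ x) + (∫ x in a..b, A₇ x) * S) := by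
  rw [intervalIntegral.integral_sub (((h₁.add h₂).sub ((h₃.add h₄).const_mul ε)).sub
      ((h₁.add h₅).const_mul δ)) (((h₄.add h₆).add (h₇.mul_const S)).const_mul D),
    intervalIntegral.integral_sub ((h₁.add h₂).sub ((h₃.add h₄).const_mul ε))
      ((h₁.add h₅).const_mul δ),
    intervalIntegral.integral_sub (h₁.add h₂) ((h₃.add h₄).const_mul ε),
    intervalIntegral.integral_const_mul, intervalIntegral.integral_const_mul,
    intervalIntegral.integral_const_mul, intervalIntegral.integral_add h₁ h₂,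
    intervalIntegral.integral_add h₃ h₄, intervalIntegral.integral_add h₁ h₅,
    intervalIntegral.integral_add (h₄.add h₆) (h₇.mul_const S), intervalIntegral.integral_add h₄ h₆,
    intervalIntegral.integral_mul_const]

theorem wm_div (G : ℝ → ℂ) (x : ℝ) : wm G x / x = x ^ 10 * ‖Qr G x‖ ^ 2 := by
  rcases eq_or_ne x 0 with rfl | h
  · simp
  · rw [wm]
    field_simp

theorem wm_div_sq (G : ℝ → ℂ) (x : ℝ) : wm G x / x ^ 2 = x ^ 9 * ‖Qr G x‖ ^ 2 := by
  rcases eq_or_ne x 0 with rfl | h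
  · simp
  · rw [wm]
    field_simp

/-- The gradient part of the energy. -/
noncomputable def E1 (G f g : ℝ → ℂ) (r₀ : ℝ) : ℝ :=
  ∫ r in (0 : ℝ)..r₀, wm G r * (‖deriv (al G f g) r‖ ^ 2 + ‖deriv (et G f g) r‖ ^ 2)

/-- The angular part of the energy. -/
noncomputable def E2 (l : ℕ) (G f g : ℝ → ℂ) (r₀ : ℝ) : ℝ :=
  ∫ r in (0 : ℝ)..r₀, Lc l * (wm G r / r ^ 2) * (‖al G f g r‖ ^ 2 + ‖et G f g r‖ ^ 2)

/-- The squared weighted norm of `et`. -/
noncomputable def Le (G f g : ℝ → ℂ) (r₀ : ℝ) : ℝ :=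
  ∫ r in (0 : ℝ)..r₀, wm G r * ‖et G f g r‖ ^ 2

variable {m l : ℕ} {β K r₀ : ℝ} {G f g SF SG : ℝ → ℂ} {lam : ℂ}

/-- Continuity of all functions on the closed interval. -/
structure Cts (m : ℕ) (G f g : ℝ → ℂ) (r₀ : ℝ) : Prop where
  α : ContinuousOn (al G f g) (Icc 0 r₀)
  η : ContinuousOn (et G f g) (Icc 0 r₀)
  α₁ : ContinuousOn (deriv (al G f g)) (Icc 0 r₀)
  η₁ : ContinuousOn (deriv (et G f g)) (Icc 0 r₀)
  w : ContinuousOn (wm G) (Icc 0 r₀)
  w₁ : ContinuousOn (fun x => wm G x / x) (Icc 0 r₀)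
  w₂ : ContinuousOn (fun x => wm G x / x ^ 2) (Icc 0 r₀)
  v : ContinuousOn (vel G) (Icc 0 r₀)
  P : ContinuousOn (fun x => Pf m G (x ^ 2)) (Icc 0 r₀)
  s : ContinuousOn (fun x => sf G (x ^ 2)) (Icc 0 r₀)
  s' : ContinuousOn (fun x => |deriv (sf G) (x ^ 2) * (2 * x)|) (Icc 0 r₀)

theorem cts (hG : IsProfile m β G) (hf : BddC 30 f) (hg : BddC 30 g)
    (h0 : ∀ r ∈ Icc 0 r₀, G (r ^ 2) ≠ 0) : Cts m G f g r₀ := by
  have hQ : Continuous (Qr G) := (contDiff_Qr hG).continuous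
  have hQ' : Continuous (deriv (Qr G)) := (contDiff_Qr hG).continuous_deriv (by simp)
  refine ⟨fun r hr => (contDiffAt_al hG hf hg (h0 r hr)).1.continuousAt.continuousWithinAt,
    fun r hr => (contDiffAt_al hG hf hg (h0 r hr)).2.continuousAt.continuousWithinAt,
    fun r hr => (derivs (contDiffAt_al hG hf hg (h0 r hr)).1).2.continuousAt.continuousWithinAt,
    fun r hr => (derivs (contDiffAt_al hG hf hg (h0 r hr)).2).2.continuousAt.continuousWithinAt,
    ?_, ?_, ?_, ?_, ?_, fun r hr => (hasDerivAt_sf hG (h0 r hr)).continuousAt.continuousWithinAt,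
    fun r hr => ?_⟩
  · unfold wm
    fun_prop
  · simp only [wm_div]
    fun_prop
  · simp only [wm_div_sq]
    fun_prop
  · exact (continuousOn_id.div_const 2).add (continuousOn_const.mul
      (Complex.continuous_im.comp_continuousOn (hQ'.continuousOn.div hQ.continuousOn h0)))
  · exact (continuous_const.mul (hQ.norm.pow _)).continuousOn
  · have h1 : ContinuousAt (fun x : ℝ => deriv (sf G) (x ^ 2)) r :=
      ContinuousAt.comp (f := fun x : ℝ => x ^ 2) (continuousAt_deriv_sf hG (h0 r hr))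
        (by fun_prop)
    exact (h1.mul (by fun_prop)).abs.continuousWithinAt

theorem Cts.c1 (c : Cts m G f g r₀) : ContinuousOn (fun r =>
    wm G r * (‖deriv (al G f g) r‖ ^ 2 + ‖deriv (et G f g) r‖ ^ 2)) (Icc 0 r₀) :=
  c.w.mul ((c.α₁.norm.pow 2).add (c.η₁.norm.pow 2))

theorem Cts.c2 (c : Cts m G f g r₀) (l : ℕ) : ContinuousOn (fun r =>
    Lc l * (wm G r / r ^ 2) * (‖al G f g r‖ ^ 2 + ‖et G f g r‖ ^ 2)) (Icc 0 r₀) :=
  (continuousOn_const.mul c.w₂).mul ((c.α.norm.pow 2).add (c.η.norm.pow 2))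

theorem Cts.c3 (c : Cts m G f g r₀) :
    ContinuousOn (fun r => wm G r * Pf m G (r ^ 2) * ‖al G f g r‖ ^ 2) (Icc 0 r₀) :=
  (c.w.mul c.P).mul (c.α.norm.pow 2)

theorem Cts.c4 (c : Cts m G f g r₀) :
    ContinuousOn (fun r => wm G r * ‖al G f g r‖ ^ 2) (Icc 0 r₀) := c.w.mul (c.α.norm.pow 2)

theorem Cts.c5 (c : Cts m G f g r₀) :
    ContinuousOn (fun r => wm G r * ‖et G f g r‖ ^ 2) (Icc 0 r₀) := c.w.mul (c.η.norm.pow 2)

theorem Lc_nonneg (l : ℕ) : 0 ≤ Lc l := by unfold Lc; positivity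

theorem wm_nonneg (G : ℝ → ℂ) {r : ℝ} (hr : 0 ≤ r) : 0 ≤ wm G r := by unfold wm; positivity

theorem N2_le (hG : IsProfile m β G) (hf : BddC 30 f) (hg : BddC 30 g) (hr : 0 ≤ r₀)
    (hb : ∀ r ∈ Icc 0 r₀, Bds G K r) :
    N2 l f g r₀ ≤ 4 * E1 G f g r₀ + 2 * E2 l G f g r₀
      + (4 * K ^ 2 + 2) * (La G f g r₀ + Le G f g r₀) := by
  have c := cts hG hf hg fun r hr => (hb r hr).ne
  have i1 := (c.c1.intervalIntegrable_of_Icc (μ := volume) hr).const_mul 4
  have i2 := ((c.c2 l).intervalIntegrable_of_Icc (μ := volume) hr).const_mul 2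
  have i3 := c.c4.intervalIntegrable_of_Icc (μ := volume) hr
  have i4 := c.c5.intervalIntegrable_of_Icc (μ := volume) hr
  have f0 := hf.smooth.continuous
  have g0 := hg.smooth.continuous
  have f1 := hf.smooth.continuous_deriv (by norm_num)
  have g1 := hg.smooth.continuous_deriv (by norm_num)
  have e : ∀ r : ℝ, r ^ 11 * (‖deriv f r‖ ^ 2 + ‖deriv g r‖ ^ 2
      + (Lc l / r ^ 2 + 1) * (‖f r‖ ^ 2 + ‖g r‖ ^ 2)) =
      r ^ 11 * (‖deriv f r‖ ^ 2 + ‖deriv g r‖ ^ 2)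
        + (Lc l * r ^ 9 + r ^ 11) * (‖f r‖ ^ 2 + ‖g r‖ ^ 2) := by
    intro r
    rcases eq_or_ne r 0 with rfl | h
    · simp
    · field_simp
  rw [E1, E2, La, Le, ← intervalIntegral.integral_add i3 i4, ← intervalIntegral.integral_const_mul,
    ← intervalIntegral.integral_const_mul, ← intervalIntegral.integral_const_mul,
    ← intervalIntegral.integral_add i1 i2,
    ← intervalIntegral.integral_add (i1.add i2) ((i3.add i4).const_mul _), N2]
  simp only [e]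
  refine intervalIntegral.integral_mono_on hr (Continuous.intervalIntegrable (by fun_prop) _ _)
    ((i1.add i2).add ((i3.add i4).const_mul _)) fun r hr' => ?_
  have b := hb r hr'
  have h1 := der_le (deriv_f_eq hG hf hg b.ne).1 (deriv_f_eq hG hf hg b.ne).2 b.der
  have h2 := mul_le_mul_of_nonneg_left h1 (pow_nonneg hr'.1 11)
  rw [sq_add (f_eq (f := f) (g := g) b.ne).1 (f_eq b.ne).2]
  simp only [wm_div_sq]
  simp only [wm]
  linarith

theorem Le_le (hG : IsProfile m β G) (hf : BddC 30 f) (hg : BddC 30 g) (hK : 1 ≤ K) (h1 : 1 ≤ r₀)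
    (h4 : r₀ ≤ 4) (hb : ∀ r ∈ Icc 0 r₀, Bds G K r) :
    Le G f g r₀ ≤ 2 * K * (4 ^ 12 * bd1 f g r₀ + E1 G f g r₀) ∧
      ∀ r ∈ Icc 0 r₀, wm G r * ‖et G f g r‖ ^ 2 ≤ 4 * K * (4 ^ 12 * bd1 f g r₀ + E1 G f g r₀) := by
  have hr : 0 ≤ r₀ := by linarith
  have c := cts hG hf hg fun r hr => (hb r hr).ne
  obtain ⟨a1, a2⟩ := ball_le h1 h4 (fun r hr => (derivs (contDiffAt_al hG hf hg (hb r hr).ne).2).1)
    c.η₁
  have a3 : ∀ r ∈ Icc 0 r₀, wm G r * ‖et G f g r‖ ^ 2 ≤ 2 * (r ^ 11 * ‖et G f g r‖ ^ 2) := by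
    intro r hr'
    have h2 := mul_le_mul_of_nonneg_left (hb r hr').upper
      (mul_nonneg (pow_nonneg hr'.1 11) (sq_nonneg ‖et G f g r‖))
    rw [wm]
    linarith
  have a4 : Le G f g r₀ ≤ 2 * ∫ r in (0 : ℝ)..r₀, r ^ 11 * ‖et G f g r‖ ^ 2 := by
    rw [← intervalIntegral.integral_const_mul]
    exact intervalIntegral.integral_mono_on hr
      ((c.w.mul (c.η.norm.pow 2)).intervalIntegrable_of_Icc hr)
      ((((continuousOn_id.pow 11).mul (c.η.norm.pow 2)).intervalIntegrable_of_Icc hr).const_mul 2)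
      a3
  have a5 : ∫ r in (0 : ℝ)..r₀, r ^ 11 * ‖deriv (et G f g) r‖ ^ 2 ≤ K * E1 G f g r₀ := by
    rw [E1, ← intervalIntegral.integral_const_mul]
    refine intervalIntegral.integral_mono_on hr
      (((continuousOn_id.pow 11).mul (c.η₁.norm.pow 2)).intervalIntegrable_of_Icc hr)
      (((c.w.mul ((c.α₁.norm.pow 2).add (c.η₁.norm.pow 2))).intervalIntegrable_of_Icc hr).const_mul
        K) fun r hr' => ?_
    have h2 := mul_le_mul_of_nonneg_left (hb r hr').lower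
      (mul_nonneg (pow_nonneg hr'.1 11) (sq_nonneg ‖deriv (et G f g) r‖))
    have h3 : 0 ≤ K * (wm G r * ‖deriv (al G f g) r‖ ^ 2) :=
      mul_nonneg (by linarith) (mul_nonneg (wm_nonneg G hr'.1) (sq_nonneg _))
    rw [wm] at h3 ⊢
    linarith
  have a6 : ‖et G f g r₀‖ ^ 2 ≤ K * bd1 f g r₀ := by
    have b := hb r₀ ⟨hr, le_rfl⟩
    have h2 := (le_of_sq_add (f_eq (f := f) (g := g) b.ne).1 (f_eq b.ne).2).2
    have h3 := (mul_le_mul h2 h2 (by positivity) (by positivity)).trans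
      (real_aux hK (norm_nonneg (f r₀)) (norm_nonneg (g r₀)) (norm_nonneg (deriv f r₀))
        (norm_nonneg (deriv g r₀))).1
    have h5 := mul_le_mul_of_nonneg_left h3 (by linarith : 0 ≤ K)
    have h6 := mul_le_mul_of_nonneg_left b.lower (sq_nonneg ‖et G f g r₀‖)
    rw [bd1]
    linarith
  exact ⟨by linarith, fun r hr' => by linarith [a2 r hr', a3 r hr']⟩

theorem identity {C₀ ε ϑ ρb δ S : ℝ} (hG : IsProfile m β G) (hI : GoodInt m β G C₀ ε ϑ ρb)
    (hρ : ρb ≤ 16) (h : RSol m β G l lam f g SF SG) (hSF : Continuous SF) (hSG : Continuous SG)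
    (hK : 1 ≤ K) (hσ : |lam.re| ≤ K) (h1 : 1 ≤ r₀) (h4 : r₀ ≤ 4) (h2 : r₀ ^ 2 ≤ ρb)
    (hb : ∀ r ∈ Icc 0 r₀, Bds G K r) (hδ : 0 < δ) (hδ1 : δ ≤ 1)
    (hS : ∀ r ∈ Icc 0 r₀, wm G r * ‖et G f g r‖ ^ 2 ≤ S) :
    E1 G f g r₀ + E2 l G f g r₀ - ε * (Pa m G f g r₀ + La G f g r₀)
      - δ * (E1 G f g r₀ + Le G f g r₀)
      - 4 * (60 * K ^ 2) ^ 2 / δ * (La G f g r₀ + L2 SF SG r₀ + ϑ * S)
      ≤ 4 ^ 11 * (max (Phi l (-lam.im) f r₀ + Phi l lam.im g r₀) 0 + 30 * K ^ 2 * bd1 f g r₀) := by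
  have hr : 0 ≤ r₀ := by linarith
  have c := cts hG h.bf h.bg fun r hr => (hb r hr).ne
  have hS0 : 0 ≤ S := (mul_nonneg (wm_nonneg G le_rfl) (sq_nonneg _)).trans (hS 0 ⟨le_rfl, hr⟩)
  have hD : 0 ≤ 4 * (60 * K ^ 2) ^ 2 / δ := by positivity
  have c1 := c.c1
  have c2 := c.c2 l
  have c3 := c.c3
  have c4 := c.c4
  have c5 := c.c5
  have c6 : ContinuousOn (fun r : ℝ => r ^ 11 * (‖SF r‖ ^ 2 + ‖SG r‖ ^ 2)) (Icc 0 r₀) := by fun_prop
  have e := int_comb (c1.intervalIntegrable_of_Icc hr) (c2.intervalIntegrable_of_Icc hr)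
    (c3.intervalIntegrable_of_Icc hr) (c4.intervalIntegrable_of_Icc hr)
    (c5.intervalIntegrable_of_Icc hr) (c6.intervalIntegrable_of_Icc hr)
    (c.s'.intervalIntegrable_of_Icc hr) ε δ (4 * (60 * K ^ 2) ^ 2 / δ) S
  have hm : (1 : ℝ) ≤ m := by exact_mod_cast hI.one_le
  have hk : |2 * (3 - 1 / (2 * (m : ℝ)))| ≤ 6 := by
    have k1 : 0 < 1 / (2 * (m : ℝ)) := by positivity
    have k2 : 1 / (2 * (m : ℝ)) ≤ 1 := by rw [div_le_one (by positivity)]; linarith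
    rw [abs_le]
    constructor <;> linarith
  have b1 := intervalIntegral.integral_le_sub_of_hasDeriv_right_of_le hr
    (continuousOn_flx (L := Lc l) (lam := lam) c.α c.η c.α₁ c.η₁ c.w c.w₁ c.v c.P c.s)
    (fun r hr' => by
      have b := (hb r (Ioo_subset_Icc_self hr')).ne
      obtain ⟨d1, d2⟩ := contDiffAt_al hG h.bf h.bg b
      exact (hasDerivAt_flx hr'.1 (derivs d1).1 (derivs d1).2 (derivs d2).1 (derivs d2).2
        (hasDerivAt_wm hG hr'.1 b) (hasDerivAt_wm_vel hG hr'.1 b) (hasDerivAt_Pf hG hr'.1 b)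
        (hasDerivAt_sf hG b) (eq_et hI.one_le hG h hr'.1 b)
        (eq_al hI.one_le hG h hr'.1 b)).hasDerivWithinAt)
    (((((c1.add c2).sub (continuousOn_const.mul (c3.add c4))).sub
      (continuousOn_const.mul (c1.add c5))).sub
      (continuousOn_const.mul ((c4.add c6).add (c.s'.mul continuousOn_const)))).integrableOn_Icc)
    (φ := fun x => wm G x * (‖deriv (al G f g) x‖ ^ 2 + ‖deriv (et G f g) x‖ ^ 2)
      + Lc l * (wm G x / x ^ 2) * (‖al G f g x‖ ^ 2 + ‖et G f g x‖ ^ 2)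
      - ε * (wm G x * Pf m G (x ^ 2) * ‖al G f g x‖ ^ 2 + wm G x * ‖al G f g x‖ ^ 2)
      - δ * (wm G x * (‖deriv (al G f g) x‖ ^ 2 + ‖deriv (et G f g) x‖ ^ 2)
        + wm G x * ‖et G f g x‖ ^ 2)
      - 4 * (60 * K ^ 2) ^ 2 / δ * (wm G x * ‖al G f g x‖ ^ 2
        + x ^ 11 * (‖SF x‖ ^ 2 + ‖SG x‖ ^ 2) + |deriv (sf G) (x ^ 2) * (2 * x)| * S))
    (fun r hr' => by
      have hr2 := Ioo_subset_Icc_self hr'
      have b := hb r hr2
      have hw := wm_nonneg G hr2.1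
      have d1 := mul_le_mul_of_nonneg_left (err_ge hK hδ hδ1 hσ hk
        (r := r) (by rw [abs_of_pos hr'.1]; exact hr2.2.trans h4) b.v b.s b.s' (al G f g r)
        (et G f g r) (deriv (al G f g) r) (deriv (et G f g) r) (et G SF SG r) (al G SF SG r)) hw
      have d2 := mul_le_mul_of_nonneg_left (hI.mono _ (sq_mem ⟨hr2.1, hr2.2.trans h4⟩))
        (mul_nonneg hw (sq_nonneg ‖al G f g r‖))
      have d3 : wm G r * (‖et G SF SG r‖ ^ 2 + ‖al G SF SG r‖ ^ 2) ≤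
          r ^ 11 * (‖SF r‖ ^ 2 + ‖SG r‖ ^ 2) := by
        have d4 : 0 ≤ wm G r * (‖et G SF SG r‖ ^ 2 + ‖al G SF SG r‖ ^ 2) := by positivity
        rw [sq_add (f_eq (f := SF) (g := SG) b.ne).1 (f_eq b.ne).2]
        rw [wm] at d4 ⊢
        linarith
      have d5 := mul_le_mul_of_nonneg_left (hS r hr2)
        (abs_nonneg (deriv (sf G) (r ^ 2) * (2 * r)))
      have d6 := mul_le_mul_of_nonneg_left (add_le_add d3 d5) hD
      linarith)
  have b2 : flx (Lc l) lam (al G f g) (et G f g) (deriv (al G f g)) (deriv (et G f g)) (wm G)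
      (vel G) (fun x => Pf m G (x ^ 2)) (fun x => sf G (x ^ 2)) 0 = 0 := by simp [flx, wm]
  have b3 : flx (Lc l) lam (al G f g) (et G f g) (deriv (al G f g)) (deriv (et G f g)) (wm G)
      (vel G) (fun x => Pf m G (x ^ 2)) (fun x => sf G (x ^ 2)) r₀ ≤
      4 ^ 11 * (max (Phi l (-lam.im) f r₀ + Phi l lam.im g r₀) 0 + 30 * K ^ 2 * bd1 f g r₀) := by
    have b := hb r₀ ⟨hr, le_rfl⟩
    have d1 := flx_le (L := Lc l) (om := lam.im) (P := Pf m G (r₀ ^ 2)) hK (by linarith) h4 hσ b.v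
      b.s (by unfold Pf; positivity) (f_eq (f := f) (g := g) b.ne).1 (f_eq b.ne).2
      (deriv_f_eq hG h.bf h.bg b.ne).1 (deriv_f_eq hG h.bf h.bg b.ne).2 b.der
    have d2 := mul_le_mul_of_nonneg_left d1 (pow_nonneg hr 11)
    have d3 : r₀ ^ 11 * (max (Phi l (-lam.im) f r₀ + Phi l lam.im g r₀) 0
        + 30 * K ^ 2 * bd1 f g r₀) ≤
        4 ^ 11 * (max (Phi l (-lam.im) f r₀ + Phi l lam.im g r₀) 0 + 30 * K ^ 2 * bd1 f g r₀) := by
      refine mul_le_mul_of_nonneg_right (pow_le_pow_left₀ hr h4 11)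
        (add_nonneg (le_max_right _ _) ?_)
      unfold bd1
      positivity
    refine le_trans (le_of_eq ?_) (d2.trans d3)
    simp only [flx, wm]
    ring
  have b4 := mul_le_mul_of_nonneg_left
    (mul_le_mul_of_nonneg_right (tv_le hG hI hρ hr h2) hS0) hD
  have e' := e.symm.le.trans b1
  rw [b2, sub_zero] at e'
  have e2 := e'.trans b3
  rw [E1, E2, Pa, La, Le, L2]
  linarith

end Vale.Agent.P139Z.IntM
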