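import Vale.Agent.P139Z.ODefs

/-! The interior multiplier estimate: the pointwise identity and pointwise inequalities. -/

open Set Filter Topology MeasureTheory Complex
open scoped ComplexConjugate

namespace Vale.Agent.P139Z.IntM

/-- The real inner product of two complex numbers. -/
def ip (a b : ℂ) : ℝ := a.re * b.re + a.im * b.im

/-- The imaginary part of `a * conj b`. -/
def iq (a b : ℂ) : ℝ := a.im * b.re - a.re * b.im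

theorem ip_self (a : ℂ) : ip a a = ‖a‖ ^ 2 := by
  rw [Complex.sq_norm, Complex.normSq_apply, ip]

theorem abs_ip (a b : ℂ) : |ip a b| ≤ ‖a‖ * ‖b‖ := by
  have h : ip a b = (a * conj b).re := by simp [ip]
  rw [h]
  exact (Complex.abs_re_le_norm _).trans (by simp)

theorem ip_le (a b : ℂ) : ip a b ≤ ‖a‖ * ‖b‖ := (le_abs_self _).trans (abs_ip a b)

theorem hasDerivAt_re {a : ℝ → ℂ} {a' : ℂ} {r : ℝ} (h : HasDerivAt a a' r) :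
    HasDerivAt (fun x => (a x).re) a'.re r :=
  Complex.reCLM.hasFDerivAt.comp_hasDerivAt r h

theorem hasDerivAt_im {a : ℝ → ℂ} {a' : ℂ} {r : ℝ} (h : HasDerivAt a a' r) :
    HasDerivAt (fun x => (a x).im) a'.im r :=
  Complex.imCLM.hasFDerivAt.comp_hasDerivAt r h

theorem hasDerivAt_ip {a b : ℝ → ℂ} {a' b' : ℂ} {r : ℝ} (ha : HasDerivAt a a' r)
    (hb : HasDerivAt b b' r) :
    HasDerivAt (fun x => ip (a x) (b x)) (ip a' (b r) + ip (a r) b') r := by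
  refine (((hasDerivAt_re ha).mul (hasDerivAt_re hb)).add
    ((hasDerivAt_im ha).mul (hasDerivAt_im hb))).congr_deriv ?_
  simp only [ip]
  ring

theorem hasDerivAt_iq {a b : ℝ → ℂ} {a' b' : ℂ} {r : ℝ} (ha : HasDerivAt a a' r)
    (hb : HasDerivAt b b' r) :
    HasDerivAt (fun x => iq (a x) (b x)) (iq a' (b r) + iq (a r) b') r := by
  refine (((hasDerivAt_im ha).mul (hasDerivAt_re hb)).sub
    ((hasDerivAt_re ha).mul (hasDerivAt_im hb))).congr_deriv ?_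
  simp only [iq]
  ring

theorem continuousOn_ip {a b : ℝ → ℂ} {s : Set ℝ} (ha : ContinuousOn a s) (hb : ContinuousOn b s) :
    ContinuousOn (fun x => ip (a x) (b x)) s := by
  unfold ip
  fun_prop

theorem continuousOn_iq {a b : ℝ → ℂ} {s : Set ℝ} (ha : ContinuousOn a s) (hb : ContinuousOn b s) :
    ContinuousOn (fun x => iq (a x) (b x)) s := by
  unfold iq
  fun_prop

/-- The flux of the multiplier identity. -/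
noncomputable def flx (L : ℝ) (lam : ℂ) (α η α₁ η₁ : ℝ → ℂ) (w v P s : ℝ → ℝ) (x : ℝ) : ℝ :=
  x * w x / 2 * (ip (η₁ x) (η₁ x) + ip (α₁ x) (α₁ x))
    - L * (w x / x) / 2 * (ip (η x) (η x) + ip (α x) (α x))
    + w x * (6 + s x) * (ip (η₁ x) (η x) + ip (α₁ x) (α x))
    + w x * v x * (6 + s x) * ip (α x) (η x) - lam.im * (x * w x) * iq (α x) (η x)
    - lam.re * (x * w x) * ip (α x) (η x) - x * w x * P x / 2 * ip (α x) (α x)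

/-- The error terms of the multiplier identity, divided by the weight. -/
noncomputable def err (σ k r v s s' : ℝ) (α η α₁ η₁ s₁ s₂ : ℂ) : ℝ :=
  s' * (ip η₁ η + ip α₁ α) + (k * (6 + s) + v * s' - σ * (12 + 2 * s)) * ip α η
    + (2 * v * (6 + s) - 2 * σ * r) * ip α η₁
    + (r * ip s₁ η₁ + (6 + s) * ip s₁ η + r * ip s₂ α₁ + (6 + s) * ip s₂ α)

theorem hasDerivAt_flx {L k M r s' : ℝ} {lam α₂ η₂ s₁ s₂ : ℂ} {α η α₁ η₁ : ℝ → ℂ}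
    {w v P s : ℝ → ℝ} (hr : 0 < r) (hα : HasDerivAt α (α₁ r) r) (hα₁ : HasDerivAt α₁ α₂ r)
    (hη : HasDerivAt η (η₁ r) r) (hη₁ : HasDerivAt η₁ η₂ r)
    (hw : HasDerivAt w (w r * ((11 + 2 * s r) / r)) r)
    (hv : HasDerivAt (fun x => w x * v x) (k * w r) r)
    (hP : HasDerivAt P (2 * M * s r * P r / r) r) (hs : HasDerivAt s s' r)
    (e₁ : η₂ + (((11 + 2 * s r) / r : ℝ) : ℂ) * η₁ r - ((L / r ^ 2 : ℝ) : ℂ) * η r + lam * α r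
      + (v r : ℂ) * α₁ r = s₁)
    (e₂ : α₂ + (((11 + 2 * s r) / r : ℝ) : ℂ) * α₁ r - ((L / r ^ 2 : ℝ) : ℂ) * α r - lam * η r
      - (v r : ℂ) * η₁ r = (P r : ℂ) * α r + s₂) :
    HasDerivAt (flx L lam α η α₁ η₁ w v P s)
      (w r * (‖α₁ r‖ ^ 2 + ‖η₁ r‖ ^ 2) + L * (w r / r ^ 2) * (‖α r‖ ^ 2 + ‖η r‖ ^ 2)
        - w r * (M * s r * P r) * ‖α r‖ ^ 2
        + w r * err lam.re k r (v r) (s r) s' (α r) (η r) (α₁ r) (η₁ r) s₁ s₂) r := by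
  have hx := hasDerivAt_id' r
  have hc : HasDerivAt (fun x => 6 + s x) s' r := hs.const_add 6
  have hxw := hx.mul hw
  have t1 := (hxw.div_const 2).mul ((hasDerivAt_ip hη₁ hη₁).add (hasDerivAt_ip hα₁ hα₁))
  have t2 := (((hw.div hx hr.ne').const_mul L).div_const 2).mul
    ((hasDerivAt_ip hη hη).add (hasDerivAt_ip hα hα))
  have t3 := (hw.mul hc).mul ((hasDerivAt_ip hη₁ hη).add (hasDerivAt_ip hα₁ hα))
  have t4 := (hv.mul hc).mul (hasDerivAt_ip hα hη)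
  have t5 := (hxw.const_mul lam.im).mul (hasDerivAt_iq hα hη)
  have t6 := (hxw.const_mul lam.re).mul (hasDerivAt_ip hα hη)
  have t7 := ((hxw.mul hP).div_const 2).mul (hasDerivAt_ip hα hα)
  refine (((((((t1.sub t2).add t3).add t4).sub t5).sub t6).sub t7).congr_deriv ?_)
  have a1 := congrArg Complex.re e₁
  have a2 := congrArg Complex.im e₁
  have a3 := congrArg Complex.re e₂
  have a4 := congrArg Complex.im e₂
  simp only [add_re, sub_re, mul_re, ofReal_re, ofReal_im, add_im, sub_im, mul_im, zero_mul,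
    sub_zero, add_zero] at a1 a2 a3 a4
  have b1 := eq_sub_of_add_eq' a3.symm
  have b2 := eq_sub_of_add_eq' a4.symm
  simp only [← ip_self, err, ip, iq, Pi.mul_apply, Pi.add_apply, Pi.div_apply, ← a1, ← a2, b1, b2]
  field_simp
  ring

theorem amgm {δ : ℝ} (hδ : 0 < δ) (B u z : ℝ) : B * u * z ≤ δ / 3 * u ^ 2 + B ^ 2 / δ * z ^ 2 := by
  have h : 0 ≤ (δ * u / 2 - B * z) ^ 2 / δ + δ * u ^ 2 / 12 := by positivity
  have e : (δ * u / 2 - B * z) ^ 2 / δ + δ * u ^ 2 / 12 =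
      δ / 3 * u ^ 2 + B ^ 2 / δ * z ^ 2 - B * u * z := by
    field_simp
    ring
  linarith

theorem term_le {c B : ℝ} (hc : |c| ≤ B) (a b : ℂ) : -(B * ‖a‖ * ‖b‖) ≤ c * ip a b := by
  have h1 : |c * ip a b| ≤ B * (‖a‖ * ‖b‖) := by
    rw [abs_mul]
    exact mul_le_mul hc (abs_ip a b) (abs_nonneg _) ((abs_nonneg _).trans hc)
  have h2 := neg_abs_le (c * ip a b)
  nlinarith

theorem coef_le {K σ k r v s s' : ℝ} (hK : 1 ≤ K) (hσ : |σ| ≤ K)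
    (hk : |k| ≤ 6) (hr : |r| ≤ 4) (hv : |v| ≤ K) (hs : |s| ≤ K) (hs' : |s'| ≤ K) :
    |k * (6 + s) + v * s' - σ * (12 + 2 * s)| ≤ 60 * K ^ 2 ∧
      |2 * v * (6 + s) - 2 * σ * r| ≤ 60 * K ^ 2 ∧ |6 + s| ≤ 7 * K := by
  have hK2 : K ≤ K * K := le_mul_of_one_le_left (by linarith) hK
  have hc : |6 + s| ≤ 7 * K := (abs_add_le _ _).trans (by rw [abs_of_pos (by norm_num)]; linarith)
  have hc2 : |12 + 2 * s| ≤ 14 * K := by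
    rw [show 12 + 2 * s = 2 * (6 + s) by ring, abs_mul, abs_two]
    linarith
  have p1 : |k * (6 + s)| ≤ 6 * (7 * K) := by
    rw [abs_mul]; exact mul_le_mul hk hc (abs_nonneg _) (by norm_num)
  have p2 : |v * s'| ≤ K * K := by
    rw [abs_mul]; exact mul_le_mul hv hs' (abs_nonneg _) (by linarith)
  have p3 : |σ * (12 + 2 * s)| ≤ K * (14 * K) := by
    rw [abs_mul]; exact mul_le_mul hσ hc2 (abs_nonneg _) (by linarith)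
  have p4 : |v * (6 + s)| ≤ K * (7 * K) := by
    rw [abs_mul]; exact mul_le_mul hv hc (abs_nonneg _) (by linarith)
  have p5 : |σ * r| ≤ K * 4 := by
    rw [abs_mul]; exact mul_le_mul hσ hr (abs_nonneg _) (by linarith)
  rw [abs_le] at p1 p2 p3 p4 p5
  refine ⟨abs_le.2 ⟨?_, ?_⟩, abs_le.2 ⟨?_, ?_⟩, hc⟩ <;> linarith

theorem num_le {B δ t x y z a p q : ℝ} (hδ : 0 < δ) (hδ1 : δ ≤ 1) (hB : 1 ≤ B) (ht0 : 0 ≤ t)
    (ht : t ≤ B) (ha : 0 ≤ a) (hq : 0 ≤ q) :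
    t * x * z + B * y * a + B * a * z + B * a * x + B * p * x + B * p * z + B * q * y + B * q * a
      ≤ δ * (y ^ 2 + x ^ 2 + z ^ 2) + 4 * B ^ 2 / δ * (a ^ 2 + (p ^ 2 + q ^ 2) + t * z ^ 2) := by
  have u1 := amgm hδ 1 x (t * z)
  have u2 := amgm hδ B y a
  have u3 := amgm hδ B z a
  have u4 := amgm hδ B x a
  have u5 := amgm hδ B x p
  have u6 := amgm hδ B z p
  have u7 := amgm hδ B y q
  have hB2 : B ≤ B ^ 2 := by nlinarith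
  have u9 : 1 ^ 2 / δ * (t * z) ^ 2 ≤ B ^ 2 / δ * (t * z ^ 2) := by
    have h2 : (t * z) ^ 2 = t * (t * z ^ 2) := by ring
    rw [h2, one_pow, ← mul_assoc, div_mul_eq_mul_div, one_mul]
    gcongr
    exact ht.trans hB2
  have hD1 : B ≤ B ^ 2 / δ := by
    rw [le_div_iff₀ hδ]
    exact (mul_le_of_le_one_right (by linarith) hδ1).trans hB2
  have e : 4 * B ^ 2 / δ = 4 * (B ^ 2 / δ) := by ring
  rw [e]
  generalize B ^ 2 / δ = D at *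
  have hD : 0 ≤ D := by linarith
  have u8 : B * q * a ≤ D * q ^ 2 + D * a ^ 2 := by
    have h1 : q * a ≤ q ^ 2 + a ^ 2 := by nlinarith [sq_nonneg (q - a), mul_nonneg hq ha]
    calc B * q * a = B * (q * a) := by ring
      _ ≤ D * (q ^ 2 + a ^ 2) := mul_le_mul hD1 h1 (mul_nonneg hq ha) hD
      _ = _ := by ring
  have n1 : 0 ≤ D * p ^ 2 := by positivity
  have n2 : 0 ≤ D * q ^ 2 := by positivity
  have n3 : 0 ≤ D * (t * z ^ 2) := by positivity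
  have n4 : 0 ≤ δ * y ^ 2 := by positivity
  have n5 : 0 ≤ δ * z ^ 2 := by positivity
  linarith

theorem err_ge {K δ σ k r v s s' : ℝ} (hK : 1 ≤ K) (hδ : 0 < δ) (hδ1 : δ ≤ 1) (hσ : |σ| ≤ K)
    (hk : |k| ≤ 6) (hr : |r| ≤ 4) (hv : |v| ≤ K) (hs : |s| ≤ K) (hs' : |s'| ≤ K)
    (α η α₁ η₁ s₁ s₂ : ℂ) :
    -(δ * (‖α₁‖ ^ 2 + ‖η₁‖ ^ 2 + ‖η‖ ^ 2) + 4 * (60 * K ^ 2) ^ 2 / δ *
      (‖α‖ ^ 2 + (‖s₁‖ ^ 2 + ‖s₂‖ ^ 2) + |s'| * ‖η‖ ^ 2)) ≤ err σ k r v s s' α η α₁ η₁ s₁ s₂ := by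
  obtain ⟨q1, q2, hc⟩ := coef_le hK hσ hk hr hv hs hs'
  have hK2 : K ≤ K ^ 2 := by nlinarith
  have hB1 : 1 ≤ 60 * K ^ 2 := by linarith
  have q3 : |r| ≤ 60 * K ^ 2 := by linarith
  have q4 : |6 + s| ≤ 60 * K ^ 2 := by linarith
  have q5 : |s'| ≤ 60 * K ^ 2 := by linarith
  generalize 60 * K ^ 2 = B at *
  have t1 := term_le (le_refl |s'|) η₁ η
  have t2 := term_le q5 α₁ α
  have t3 := term_le q1 α η
  have t4 := term_le q2 α η₁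
  have t5 := term_le q3 s₁ η₁
  have t6 := term_le q4 s₁ η
  have t7 := term_le q3 s₂ α₁
  have t8 := term_le q4 s₂ α
  have u := num_le (x := ‖η₁‖) (y := ‖α₁‖) (z := ‖η‖) (p := ‖s₁‖) hδ hδ1 hB1 (abs_nonneg s') q5
    (norm_nonneg α) (norm_nonneg s₂)
  rw [err]
  linarith

section pt

variable {Q Q₁ α η α₁ η₁ f g f₁ g₁ : ℂ} {K : ℝ}

theorem sq_add (hf : f = Q * (α + I * η)) (hg : g = conj Q * (α - I * η)) :
    ‖f‖ ^ 2 + ‖g‖ ^ 2 = 2 * ‖Q‖ ^ 2 * (‖α‖ ^ 2 + ‖η‖ ^ 2) := by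
  rw [hf, hg, norm_mul, norm_mul, Complex.norm_conj, mul_pow, mul_pow]
  simp only [← ip_self, ip, add_re, sub_re, mul_re, add_im, sub_im, mul_im, I_re, I_im]
  ring

theorem sq_sub (hf : f = Q * (α + I * η)) (hg : g = conj Q * (α - I * η)) :
    ‖f‖ ^ 2 - ‖g‖ ^ 2 = 4 * ‖Q‖ ^ 2 * iq α η := by
  rw [hf, hg, norm_mul, norm_mul, Complex.norm_conj, mul_pow, mul_pow]
  simp only [← ip_self (α + I * η), ← ip_self (α - I * η), ip, iq, add_re, sub_re, mul_re, add_im,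
    sub_im, mul_im, I_re, I_im]
  ring

theorem le_of_sq_add (hf : f = Q * (α + I * η)) (hg : g = conj Q * (α - I * η)) :
    ‖Q‖ * ‖α‖ ≤ ‖f‖ + ‖g‖ ∧ ‖Q‖ * ‖η‖ ≤ ‖f‖ + ‖g‖ := by
  have h := sq_add hf hg
  have h1 : 0 ≤ ‖f‖ * ‖g‖ := by positivity
  have h2 : 0 ≤ ‖Q‖ ^ 2 * ‖α‖ ^ 2 := by positivity
  have h3 : 0 ≤ ‖Q‖ ^ 2 * ‖η‖ ^ 2 := by positivity
  constructor
  · exact le_of_sq_le_sq (by nlinarith) (by positivity)
  · exact le_of_sq_le_sq (by nlinarith) (by positivity)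

theorem der_le (hf : f₁ = Q₁ * (α + I * η) + Q * (α₁ + I * η₁))
    (hg : g₁ = conj Q₁ * (α - I * η) + conj Q * (α₁ - I * η₁)) (hQ : ‖Q₁‖ ≤ K * ‖Q‖) :
    ‖f₁‖ ^ 2 + ‖g₁‖ ^ 2 ≤
      4 * K ^ 2 * (‖Q‖ ^ 2 * (‖α‖ ^ 2 + ‖η‖ ^ 2)) + 4 * (‖Q‖ ^ 2 * (‖α₁‖ ^ 2 + ‖η₁‖ ^ 2)) := by
  have h1 := sq_add (Q := Q₁) (α := α) (η := η) rfl rfl
  have h2 := sq_add (Q := Q) (α := α₁) (η := η₁) rfl rfl
  have h3 : ∀ a b : ℂ, ‖a + b‖ ^ 2 ≤ 2 * ‖a‖ ^ 2 + 2 * ‖b‖ ^ 2 := fun a b =>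
    (pow_le_pow_left₀ (norm_nonneg _) (norm_add_le a b) 2).trans
      (by nlinarith [sq_nonneg (‖a‖ - ‖b‖)])
  have h4 := h3 (Q₁ * (α + I * η)) (Q * (α₁ + I * η₁))
  have h5 := h3 (conj Q₁ * (α - I * η)) (conj Q * (α₁ - I * η₁))
  have h6 : ‖Q₁‖ ^ 2 * (‖α‖ ^ 2 + ‖η‖ ^ 2) ≤ (K * ‖Q‖) ^ 2 * (‖α‖ ^ 2 + ‖η‖ ^ 2) := by gcongr
  rw [hf, hg]
  linarith

theorem der_ge (hf : f = Q * (α + I * η)) (hg : g = conj Q * (α - I * η))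
    (hf₁ : f₁ = Q₁ * (α + I * η) + Q * (α₁ + I * η₁))
    (hg₁ : g₁ = conj Q₁ * (α - I * η) + conj Q * (α₁ - I * η₁)) (hQ : ‖Q₁‖ ≤ K * ‖Q‖) :
    ‖Q * (α₁ + I * η₁)‖ ≤ ‖f₁‖ + K * ‖f‖ ∧ ‖conj Q * (α₁ - I * η₁)‖ ≤ ‖g₁‖ + K * ‖g‖ := by
  constructor
  · rw [eq_sub_of_add_eq' hf₁.symm]
    refine (norm_sub_le _ _).trans ?_
    rw [hf, norm_mul, norm_mul, ← mul_assoc]
    gcongr
  · rw [eq_sub_of_add_eq' hg₁.symm]
    refine (norm_sub_le _ _).trans ?_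
    rw [hg, norm_mul, norm_mul, ← mul_assoc, Complex.norm_conj, Complex.norm_conj]
    gcongr

theorem real_aux {K a b c d : ℝ} (hK : 1 ≤ K) (ha : 0 ≤ a) (hb : 0 ≤ b) (hc : 0 ≤ c) (hd : 0 ≤ d) :
    (a + b) * (a + b) ≤ (a + b) * (a + b + c + d) ∧
      c + K * a + (d + K * b) ≤ K * (a + b + c + d) ∧
      (c + K * a) ^ 2 + (d + K * b) ^ 2 ≤
        c ^ 2 + d ^ 2 + 3 * K ^ 2 * ((a + b) * (a + b + c + d)) := by
  have hK2 : K ≤ K ^ 2 := by nlinarith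
  refine ⟨mul_le_mul_of_nonneg_left (by linarith) (by linarith), by nlinarith, ?_⟩
  have e3 : c * a + d * b ≤ (a + b) * (a + b + c + d) := by
    nlinarith [mul_nonneg ha hb, mul_nonneg ha hd, mul_nonneg hb hc, mul_nonneg ha ha,
      mul_nonneg hb hb]
  have e4 : a ^ 2 + b ^ 2 ≤ (a + b) * (a + b + c + d) := by
    nlinarith [mul_nonneg ha hb, mul_nonneg ha hd, mul_nonneg hb hc, mul_nonneg ha hc,
      mul_nonneg hb hd]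
  have e5 : K * (c * a + d * b) ≤ K ^ 2 * ((a + b) * (a + b + c + d)) :=
    mul_le_mul hK2 e3 (by positivity) (by positivity)
  have e6 : K ^ 2 * (a ^ 2 + b ^ 2) ≤ K ^ 2 * ((a + b) * (a + b + c + d)) := by gcongr
  linarith

theorem wip_le (Q a b : ℂ) {x y : ℝ} (ha : ‖Q‖ * ‖a‖ ≤ x) (hb : ‖Q‖ * ‖b‖ ≤ y) {c B : ℝ}
    (hc : |c| ≤ B) : ‖Q‖ ^ 2 * c * ip a b ≤ B * (x * y) := by
  have h2 : ‖Q‖ ^ 2 * |ip a b| ≤ x * y :=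
    calc _ ≤ ‖Q‖ ^ 2 * (‖a‖ * ‖b‖) := by gcongr; exact abs_ip _ _
      _ = ‖Q‖ * ‖a‖ * (‖Q‖ * ‖b‖) := by ring
      _ ≤ x * y := mul_le_mul ha hb (by positivity) (le_trans (by positivity) ha)
  calc _ ≤ |‖Q‖ ^ 2 * c * ip a b| := le_abs_self _
    _ = |c| * (‖Q‖ ^ 2 * |ip a b|) := by rw [abs_mul, abs_mul, abs_of_nonneg (sq_nonneg _)]; ring
    _ ≤ B * (x * y) := mul_le_mul hc h2 (by positivity) ((abs_nonneg _).trans hc)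

theorem main_eq {L om r : ℝ} (hr0 : 0 < r) (hf : f = Q * (α + I * η))
    (hg : g = conj Q * (α - I * η)) (f₁ g₁ α₁ η₁ : ℂ) :
    r * ‖Q‖ ^ 2 / 2 * (ip η₁ η₁ + ip α₁ α₁) - L * (‖Q‖ ^ 2 / r) / 2 * (ip η η + ip α α)
      - om * (r * ‖Q‖ ^ 2) * iq α η =
      r / 4 * (‖f₁‖ ^ 2 + (-om - L / r ^ 2) * ‖f‖ ^ 2 + (‖g₁‖ ^ 2 + (om - L / r ^ 2) * ‖g‖ ^ 2)
        + (2 * ‖Q‖ ^ 2 * (‖α₁‖ ^ 2 + ‖η₁‖ ^ 2) - (‖f₁‖ ^ 2 + ‖g₁‖ ^ 2))) := by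
  have e1 : ‖f₁‖ ^ 2 + (-om - L / r ^ 2) * ‖f‖ ^ 2 + (‖g₁‖ ^ 2 + (om - L / r ^ 2) * ‖g‖ ^ 2) =
      ‖f₁‖ ^ 2 + ‖g₁‖ ^ 2 - om * (‖f‖ ^ 2 - ‖g‖ ^ 2) - L / r ^ 2 * (‖f‖ ^ 2 + ‖g‖ ^ 2) := by ring
  rw [e1, sq_add hf hg, sq_sub hf hg]
  simp only [ip_self]
  field_simp
  ring

/-- The boundary term of the multiplier identity, divided by `r ^ 11`. -/
theorem flx_le {L σ om r v s P : ℝ} (hK : 1 ≤ K) (hr0 : 0 < r) (hr : r ≤ 4) (hσ : |σ| ≤ K)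
    (hv : |v| ≤ K) (hs : |s| ≤ K) (hP : 0 ≤ P)
    (hf : f = Q * (α + I * η)) (hg : g = conj Q * (α - I * η))
    (hf₁ : f₁ = Q₁ * (α + I * η) + Q * (α₁ + I * η₁))
    (hg₁ : g₁ = conj Q₁ * (α - I * η) + conj Q * (α₁ - I * η₁)) (hQ : ‖Q₁‖ ≤ K * ‖Q‖) :
    r * ‖Q‖ ^ 2 / 2 * (ip η₁ η₁ + ip α₁ α₁) - L * (‖Q‖ ^ 2 / r) / 2 * (ip η η + ip α α)
      + ‖Q‖ ^ 2 * (6 + s) * (ip η₁ η + ip α₁ α) + ‖Q‖ ^ 2 * v * (6 + s) * ip α η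
      - om * (r * ‖Q‖ ^ 2) * iq α η - σ * (r * ‖Q‖ ^ 2) * ip α η - r * ‖Q‖ ^ 2 * P / 2 * ip α α
      ≤ max (‖f₁‖ ^ 2 + (-om - L / r ^ 2) * ‖f‖ ^ 2 + (‖g₁‖ ^ 2 + (om - L / r ^ 2) * ‖g‖ ^ 2)) 0
        + 30 * K ^ 2 * ((‖f‖ + ‖g‖) * (‖f‖ + ‖g‖ + ‖f₁‖ + ‖g₁‖)) := by
  have hK0 : 0 ≤ K := by linarith
  have hK2 : K ≤ K ^ 2 := by nlinarith
  obtain ⟨-, -, hc⟩ := coef_le (k := 0) (r := 0) (s' := 0) hK hσ (by simp) (by simp) hv hs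
    (by simpa using hK0)
  obtain ⟨a1, a2⟩ := le_of_sq_add hf hg
  obtain ⟨a3, a4⟩ := der_ge hf hg hf₁ hg₁ hQ
  obtain ⟨a5, a6⟩ := le_of_sq_add (Q := Q) (α := α₁) (η := η₁) rfl rfl
  obtain ⟨b1, c0, c1⟩ := real_aux hK (norm_nonneg f) (norm_nonneg g) (norm_nonneg f₁)
    (norm_nonneg g₁)
  have d1 := wip_le Q η₁ η (a6.trans ((add_le_add a3 a4).trans c0)) a2 hc
  have d2 := wip_le Q α₁ α (a5.trans ((add_le_add a3 a4).trans c0)) a1 hc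
  have d3 := (wip_le Q α η a1 a2 (c := v * (6 + s)) (B := K * (7 * K))
    (by rw [abs_mul]; exact mul_le_mul hv hc (abs_nonneg _) hK0)).trans
    (mul_le_mul_of_nonneg_left b1 (by positivity))
  have d4 := (wip_le Q α η a1 a2 (c := -(σ * r)) (B := K ^ 2 * 4)
    (by
      rw [abs_neg, abs_mul, abs_of_pos hr0]
      exact mul_le_mul (hσ.trans hK2) hr hr0.le (by positivity))).trans
    (mul_le_mul_of_nonneg_left b1 (by positivity))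
  have d5 : 0 ≤ r * ‖Q‖ ^ 2 * P / 2 * ip α α := by rw [ip_self]; positivity
  have d6 := (add_le_add (pow_le_pow_left₀ (norm_nonneg _) a3 2)
    (pow_le_pow_left₀ (norm_nonneg _) a4 2)).trans c1
  rw [sq_add (Q := Q) (α := α₁) (η := η₁) rfl rfl] at d6
  have d7 := main_eq (L := L) (om := om) hr0 hf hg f₁ g₁ α₁ η₁
  have d10 : 0 ≤ K ^ 2 * ((‖f‖ + ‖g‖) * (‖f‖ + ‖g‖ + ‖f₁‖ + ‖g₁‖)) := by positivity
  generalize ‖f₁‖ ^ 2 + (-om - L / r ^ 2) * ‖f‖ ^ 2 + (‖g₁‖ ^ 2 + (om - L / r ^ 2) * ‖g‖ ^ 2) = Φ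
    at d7 ⊢
  have e1 := le_max_left Φ 0
  have e2 := le_max_right Φ 0
  have d8 : r / 4 * (Φ + (2 * ‖Q‖ ^ 2 * (‖α₁‖ ^ 2 + ‖η₁‖ ^ 2) - (‖f₁‖ ^ 2 + ‖g₁‖ ^ 2)))
      ≤ max Φ 0 + 3 * K ^ 2 * ((‖f‖ + ‖g‖) * (‖f‖ + ‖g‖ + ‖f₁‖ + ‖g₁‖)) :=
    (mul_le_mul_of_nonneg_left (by linarith) (by linarith)).trans
      (mul_le_of_le_one_left (by linarith) (by linarith))
  clear a1 a2 a3 a4 a5 a6 b1 c0 c1 d6 e1 e2 hc hK2 hQ
  linarith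

end pt

end Vale.Agent.P139Z.IntM
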