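import Vale.Agent.P139Z.IntM.Alg
import Vale.Agent.P139Z.IntB

/-! The interior multiplier estimate: bounds for the coefficients and one-dimensional lemmas. -/

open Set Filter Topology MeasureTheory Complex
open scoped ComplexConjugate ContDiff

namespace Vale.Agent.P139Z.IntM

variable {m : ℕ} {β : ℝ} {G : ℝ → ℂ}

theorem hasDerivAt_Qr (hG : IsProfile m β G) (r : ℝ) :
    HasDerivAt (Qr G) (((2 * r : ℝ) : ℂ) * deriv G (r ^ 2)) r := by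
  have h1 : HasDerivAt G (deriv G (r ^ 2)) (r ^ 2) :=
    (hG.smooth.differentiable (by simp) _).hasDerivAt
  have h2 : HasDerivAt (fun x : ℝ => x ^ 2) (2 * r) r := by simpa using hasDerivAt_pow 2 r
  exact HasDerivAt.scomp (h := fun x : ℝ => x ^ 2) r h1 h2

theorem contDiff_Qr (hG : IsProfile m β G) : ContDiff ℝ ∞ (Qr G) :=
  hG.smooth.comp (contDiff_id.pow 2)

theorem contDiffAt_sf (hG : IsProfile m β G) {ρ : ℝ} (h0 : G ρ ≠ 0) :
    ContDiffAt ℝ 1 (sf G) ρ := by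
  have h1 : ContDiff ℝ 1 G := hG.smooth.of_le (by simp)
  have h2 : ContDiff ℝ 1 (deriv G) := (contDiff_infty_iff_deriv.1 hG.smooth).2.of_le (by simp)
  have h3 : ContDiffAt ℝ 1 (fun x => deriv G x / G x) ρ :=
    h2.contDiffAt.mul (h1.contDiffAt.inv h0)
  exact (contDiffAt_const.mul contDiffAt_id).mul (Complex.reCLM.contDiff.contDiffAt.comp ρ h3)

theorem hasDerivAt_sf (hG : IsProfile m β G) {r : ℝ} (h0 : G (r ^ 2) ≠ 0) :
    HasDerivAt (fun x => sf G (x ^ 2)) (deriv (sf G) (r ^ 2) * (2 * r)) r := by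
  have h1 : HasDerivAt (sf G) (deriv (sf G) (r ^ 2)) (r ^ 2) :=
    ((contDiffAt_sf hG h0).differentiableAt one_ne_zero).hasDerivAt
  have h2 : HasDerivAt (fun x : ℝ => x ^ 2) (2 * r) r := by simpa using hasDerivAt_pow 2 r
  exact HasDerivAt.comp (h := fun x : ℝ => x ^ 2) r h1 h2

theorem continuousAt_deriv_sf (hG : IsProfile m β G) {ρ : ℝ} (h0 : G ρ ≠ 0) :
    ContinuousAt (deriv (sf G)) ρ :=
  ((contDiffAt_sf hG h0).derivWithin (m := 0) (by simp)).continuousAt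

theorem sq_mem {r : ℝ} (hr : r ∈ Icc (0 : ℝ) 4) : r ^ 2 ∈ Icc (0 : ℝ) 16 :=
  ⟨sq_nonneg r, by nlinarith [hr.1, hr.2]⟩

variable {C₀ ε ϑ ρb : ℝ}

theorem ne_zero (h : GoodInt m β G C₀ ε ϑ ρb) {ρ : ℝ} (hρ : ρ ∈ Icc (0 : ℝ) 16) : G ρ ≠ 0 := by
  intro h0
  have := h.lower ρ hρ
  rw [h0, norm_zero, mul_zero] at this
  linarith

theorem quot_le (h : GoodInt m β G C₀ ε ϑ ρb) {ρ : ℝ} (hρ : ρ ∈ Icc (0 : ℝ) 16) :
    ‖deriv G ρ / G ρ‖ ≤ C₀ ^ 2 := by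
  have h1 := h.lower ρ hρ
  have h2 := h.deriv_bd ρ hρ
  have h3 : 0 ≤ C₀ := (norm_nonneg _).trans h2
  rw [norm_div, div_le_iff₀ (norm_pos_iff.2 (ne_zero h hρ))]
  nlinarith

theorem sq_le_two (h : GoodInt m β G C₀ ε ϑ ρb) {ρ : ℝ} (hρ : ρ ∈ Icc (0 : ℝ) 16) :
    ‖G ρ‖ ^ 2 ≤ 2 := by
  by_contra hc
  have h1 := h.upper ρ hρ
  rw [pow_mul] at h1
  have h2 := le_self_pow₀ (a := ‖G ρ‖ ^ 2) (n := m) (by linarith) (by have := h.one_le; omega)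
  linarith

theorem deriv_sf_le (hG : IsProfile m β G) (h : GoodInt m β G C₀ ε ϑ ρb) {ρ : ℝ}
    (hρ : ρ ∈ Icc (0 : ℝ) 16) : |deriv (sf G) ρ| ≤ 2 + 18 * C₀ ^ 2 + 64 * (C₀ ^ 2) ^ 2 := by
  rw [deriv_sf hG hρ.1 (ne_zero h hρ)]
  have h1 := (Complex.abs_re_le_norm _).trans (quot_le h hρ)
  have h2 := (Complex.abs_im_le_norm _).trans (quot_le h hρ)
  have h3 := h.upper ρ hρ
  have h4 : 0 ≤ ‖G ρ‖ ^ (2 * m) := by positivity
  have h5 := abs_le.1 h.beta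
  generalize (deriv G ρ / G ρ).re = u at *
  generalize (deriv G ρ / G ρ).im = w at *
  generalize C₀ ^ 2 = κ at *
  have a1 : u ^ 2 ≤ κ ^ 2 := sq_le_sq' (abs_le.1 h1).1 (abs_le.1 h1).2
  have a2 : w ^ 2 ≤ κ ^ 2 := sq_le_sq' (abs_le.1 h2).1 (abs_le.1 h2).2
  have a3 : |ρ * w| ≤ 16 * κ := by
    rw [abs_mul, abs_of_nonneg hρ.1]
    exact mul_le_mul hρ.2 h2 (abs_nonneg _) (by norm_num)
  have a4 : ρ * u ^ 2 ≤ 16 * κ ^ 2 := mul_le_mul hρ.2 a1 (sq_nonneg _) (by norm_num)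
  have a5 : ρ * w ^ 2 ≤ 16 * κ ^ 2 := mul_le_mul hρ.2 a2 (sq_nonneg _) (by norm_num)
  have a6 : 0 ≤ ρ * u ^ 2 := mul_nonneg hρ.1 (sq_nonneg _)
  have a7 : 0 ≤ ρ * w ^ 2 := mul_nonneg hρ.1 (sq_nonneg _)
  have a8 := sq_nonneg κ
  rw [abs_le] at h1 a3 ⊢
  constructor <;> linarith

/-- The bounds for the coefficients at one point. -/
structure Bds (G : ℝ → ℂ) (K r : ℝ) : Prop where
  ne : G (r ^ 2) ≠ 0
  lower : 1 ≤ K * ‖Qr G r‖ ^ 2
  upper : ‖Qr G r‖ ^ 2 ≤ 2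
  der : ‖deriv (Qr G) r‖ ≤ K * ‖Qr G r‖
  s : |sf G (r ^ 2)| ≤ K
  v : |vel G r| ≤ K
  s' : |deriv (sf G) (r ^ 2) * (2 * r)| ≤ K

theorem exists_bds (C₀ σ₀ : ℝ) : ∃ K : ℝ, 1 ≤ K ∧ σ₀ ≤ K ∧ ∀ (m : ℕ) (β : ℝ) (G : ℝ → ℂ)
    (ε ϑ ρb : ℝ), IsProfile m β G → GoodInt m β G C₀ ε ϑ ρb → ∀ r ∈ Icc (0 : ℝ) 4, Bds G K r := by
  have k1 := sq_nonneg C₀
  have k2 := sq_nonneg (C₀ ^ 2)
  have k3 := abs_nonneg σ₀
  refine ⟨8 * (2 + 18 * C₀ ^ 2 + 64 * (C₀ ^ 2) ^ 2) + |σ₀|, by linarith,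
    by linarith [le_abs_self σ₀], fun m β G ε ϑ ρb hG h r hr => ?_⟩
  have hρ := sq_mem hr
  have h0 := ne_zero h hρ
  have h1 := quot_le h hρ
  have h2 : ‖deriv (Qr G) r / Qr G r‖ ≤ 8 * C₀ ^ 2 := by
    rw [(hasDerivAt_Qr hG r).deriv, mul_div_assoc, norm_mul, Complex.norm_real,
      Real.norm_of_nonneg (by linarith [hr.1])]
    exact mul_le_mul (by linarith [hr.2]) h1 (norm_nonneg _) (by norm_num)
  refine ⟨h0, ?_, sq_le_two h hρ, ?_, ?_, ?_, ?_⟩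
  · have h3 := one_le_pow₀ (n := 2) (h.lower _ hρ)
    rw [mul_pow] at h3
    exact h3.trans (mul_le_mul_of_nonneg_right (by linarith) (sq_nonneg _))
  · rw [norm_div, div_le_iff₀ (norm_pos_iff.2 (show Qr G r ≠ 0 from h0))] at h2
    exact h2.trans (mul_le_mul_of_nonneg_right (by linarith) (norm_nonneg _))
  · have h3 : |sf G (r ^ 2)| ≤ 32 * C₀ ^ 2 := by
      rw [sf, abs_mul, abs_of_nonneg (by positivity)]
      exact mul_le_mul (by linarith [hρ.2]) ((Complex.abs_re_le_norm _).trans h1) (abs_nonneg _)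
        (by norm_num)
    linarith
  · have h3 := abs_le.1 ((Complex.abs_im_le_norm _).trans h2)
    rw [vel, abs_le]
    constructor <;> linarith [hr.1, hr.2]
  · have h3 : |deriv (sf G) (r ^ 2) * (2 * r)| ≤ (2 + 18 * C₀ ^ 2 + 64 * (C₀ ^ 2) ^ 2) * 8 := by
      rw [abs_mul, abs_of_nonneg (a := 2 * r) (by linarith [hr.1])]
      exact mul_le_mul (deriv_sf_le hG h hρ) (by linarith [hr.2]) (by linarith [hr.1])
        (by positivity)
    linarith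

theorem tv_le (hG : IsProfile m β G) (h : GoodInt m β G C₀ ε ϑ ρb) (hb : ρb ≤ 16) {r₀ : ℝ}
    (h0 : 0 ≤ r₀) (h1 : r₀ ^ 2 ≤ ρb) :
    ∫ r in (0 : ℝ)..r₀, |deriv (sf G) (r ^ 2) * (2 * r)| ≤ ϑ := by
  have hc : ContinuousOn (fun ρ => |deriv (sf G) ρ|) (Icc 0 16) := fun ρ hρ =>
    (continuousAt_deriv_sf hG (ne_zero h hρ)).abs.continuousWithinAt
  have e1 : ∫ r in (0 : ℝ)..r₀, |deriv (sf G) (r ^ 2) * (2 * r)| =
      ∫ r in (0 : ℝ)..r₀, ((fun ρ => |deriv (sf G) ρ|) ∘ fun x : ℝ => x ^ 2) r * (2 * r) := by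
    refine intervalIntegral.integral_congr fun r hr => ?_
    rw [uIcc_of_le h0] at hr
    simp only [Function.comp_apply]
    rw [abs_mul, abs_of_nonneg (a := 2 * r) (by linarith [hr.1])]
  rw [e1, intervalIntegral.integral_comp_mul_deriv' (f := fun x : ℝ => x ^ 2)
    (f' := fun x => 2 * x) (fun x _ => by simpa using hasDerivAt_pow 2 x) (by fun_prop)
    (hc.mono ?_)]
  · refine le_trans (intervalIntegral.integral_mono_interval (by simp) (by simpa using sq_nonneg r₀) h1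
      (Eventually.of_forall fun ρ => abs_nonneg _) ?_) h.tv
    refine (hc.mono ?_).intervalIntegrable
    rw [uIcc_of_le ((sq_nonneg _).trans h1)]
    exact Icc_subset_Icc le_rfl hb
  · rintro _ ⟨x, hx, rfl⟩
    rw [uIcc_of_le h0] at hx
    exact ⟨sq_nonneg x, (pow_le_pow_left₀ hx.1 hx.2 2).trans (h1.trans hb)⟩

theorem derivs {u : ℝ → ℂ} {r : ℝ} (h : ContDiffAt ℝ 2 u r) :
    HasDerivAt u (deriv u r) r ∧ HasDerivAt (deriv u) (iteratedDeriv 2 u r) r := by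
  refine ⟨(h.differentiableAt two_ne_zero).hasDerivAt, ?_⟩
  rw [iteratedDeriv_succ, iteratedDeriv_one]
  exact ((h.derivWithin (m := 1) (by norm_num)).differentiableAt one_ne_zero).hasDerivAt

theorem deriv_f_eq (hG : IsProfile m β G) {f g : ℝ → ℂ} (hf : BddC 30 f) (hg : BddC 30 g) {r : ℝ}
    (h0 : G (r ^ 2) ≠ 0) :
    deriv f r = deriv (Qr G) r * (al G f g r + I * et G f g r)
        + Qr G r * (deriv (al G f g) r + I * deriv (et G f g) r) ∧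
      deriv g r = conj (deriv (Qr G) r) * (al G f g r - I * et G f g r)
        + conj (Qr G r) * (deriv (al G f g) r - I * deriv (et G f g) r) := by
  obtain ⟨ha, he⟩ := contDiffAt_al hG hf hg h0
  have hQ : HasDerivAt (Qr G) (deriv (Qr G) r) r := (hasDerivAt_Qr hG r).differentiableAt.hasDerivAt
  have hev : ∀ᶠ x in 𝓝 r, G (x ^ 2) ≠ 0 := hQ.continuousAt.eventually_ne h0
  constructor
  · refine HasDerivAt.deriv
      ((hQ.mul ((derivs ha).1.add ((derivs he).1.const_mul I))).congr_of_eventuallyEq ?_)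
    filter_upwards [hev] with x hx
    exact (f_eq hx).1
  · refine HasDerivAt.deriv
      ((hQ.star.mul ((derivs ha).1.sub ((derivs he).1.const_mul I))).congr_of_eventuallyEq ?_)
    filter_upwards [hev] with x hx
    exact (f_eq hx).2

/-- Poincaré inequality and pointwise bound on the ball. -/
theorem ball_le {r₀ : ℝ} (h0 : 1 ≤ r₀) (h4 : r₀ ≤ 4) {u u' : ℝ → ℂ}
    (hd : ∀ x ∈ Icc 0 r₀, HasDerivAt u (u' x) x) (hc : ContinuousOn u' (Icc 0 r₀)) :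
    (∫ x in (0 : ℝ)..r₀, x ^ 11 * ‖u x‖ ^ 2 ≤
        4 ^ 12 * ‖u r₀‖ ^ 2 + ∫ x in (0 : ℝ)..r₀, x ^ 11 * ‖u' x‖ ^ 2) ∧
      ∀ r ∈ Icc 0 r₀, r ^ 11 * ‖u r‖ ^ 2 ≤
        2 * (4 ^ 12 * ‖u r₀‖ ^ 2 + ∫ x in (0 : ℝ)..r₀, x ^ 11 * ‖u' x‖ ^ 2) := by
  have hr : 0 ≤ r₀ := by linarith
  have hu : ContinuousOn u (Icc 0 r₀) := fun x hx => (hd x hx).continuousAt.continuousWithinAt
  have i1 : ∀ k : ℕ, IntervalIntegrable (fun x => x ^ k * ‖u x‖ ^ 2) volume 0 r₀ := fun k =>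
    ContinuousOn.intervalIntegrable_of_Icc hr (by fun_prop)
  have i2 : IntervalIntegrable (fun x => x ^ 11 * ‖u' x‖ ^ 2) volume 0 r₀ :=
    ContinuousOn.intervalIntegrable_of_Icc hr (by fun_prop)
  have p2 : 0 ≤ ∫ x in (0 : ℝ)..r₀, x ^ 11 * ‖u' x‖ ^ 2 :=
    intervalIntegral.integral_nonneg hr fun x hx => mul_nonneg (pow_nonneg hx.1 _) (sq_nonneg _)
  have p3 := sq_nonneg ‖u r₀‖
  have a1 : ∫ x in (0 : ℝ)..r₀, x ^ 11 * ‖u x‖ ^ 2 ≤ 16 * ∫ x in (0 : ℝ)..r₀, x ^ 9 * ‖u x‖ ^ 2 := by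
    rw [← intervalIntegral.integral_const_mul]
    refine intervalIntegral.integral_mono_on hr (i1 11) ((i1 9).const_mul 16) fun x hx => ?_
    have h1 : x ^ 2 ≤ 16 := (sq_mem ⟨hx.1, hx.2.trans h4⟩).2
    have h2 : 0 ≤ x ^ 9 * ‖u x‖ ^ 2 := mul_nonneg (pow_nonneg hx.1 _) (sq_nonneg _)
    calc _ = x ^ 2 * (x ^ 9 * ‖u x‖ ^ 2) := by ring
      _ ≤ _ := mul_le_mul_of_nonneg_right h1 h2
  have a2 := hardy_ball hr hd hc
  have a3 : r₀ ^ 10 * ‖u r₀‖ ^ 2 ≤ 4 ^ 10 * ‖u r₀‖ ^ 2 := by gcongr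
  have a4 : r₀ ^ 11 * ‖u r₀‖ ^ 2 ≤ 4 ^ 11 * ‖u r₀‖ ^ 2 := by gcongr
  have a5 : ∫ x in (0 : ℝ)..r₀, x ^ 11 * ‖u x‖ ^ 2 ≤
      4 ^ 12 * ‖u r₀‖ ^ 2 + ∫ x in (0 : ℝ)..r₀, x ^ 11 * ‖u' x‖ ^ 2 := by linarith
  refine ⟨a5, fun r hr' => ?_⟩
  have hs : Icc r r₀ ⊆ Icc 0 r₀ := Icc_subset_Icc hr'.1 le_rfl
  have b1 := intervalIntegral.sub_le_integral_of_hasDeriv_right_of_le hr'.2
    (g := fun x => -(x ^ 11 * ip (u x) (u x)))
    (g' := fun x => -(11 * x ^ 10 * ip (u x) (u x) + x ^ 11 * (ip (u' x) (u x) + ip (u x) (u' x))))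
    (φ := fun x => x ^ 11 * ‖u x‖ ^ 2 + x ^ 11 * ‖u' x‖ ^ 2)
    (((continuousOn_id.pow 11).mul (continuousOn_ip (hu.mono hs) (hu.mono hs))).neg)
    (fun x hx => by
      have h1 := hd x (hs (Ioo_subset_Icc_self hx))
      have h2 : HasDerivAt (fun x : ℝ => x ^ 11) (11 * x ^ 10) x := by
        simpa using hasDerivAt_pow 11 x
      exact (h2.mul (hasDerivAt_ip h1 h1)).neg.hasDerivWithinAt)
    (ContinuousOn.integrableOn_Icc (by
      have := hu.mono hs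
      have := hc.mono hs
      fun_prop))
    (fun x hx => by
      have h1 : 0 ≤ x := hr'.1.trans hx.1.le
      have h2 := neg_abs_le (ip (u' x) (u x))
      have h3 := neg_abs_le (ip (u x) (u' x))
      have h4 := abs_ip (u' x) (u x)
      have h5 := abs_ip (u x) (u' x)
      have h6 : -(ip (u' x) (u x) + ip (u x) (u' x)) ≤ ‖u x‖ ^ 2 + ‖u' x‖ ^ 2 := by
        nlinarith [sq_nonneg (‖u x‖ - ‖u' x‖)]
      have h7 := mul_le_mul_of_nonneg_left h6 (pow_nonneg h1 11)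
      have h8 : 0 ≤ 11 * x ^ 10 * ip (u x) (u x) := by rw [ip_self]; positivity
      linarith)
  have b2 := intervalIntegral.integral_mono_interval (f := fun x =>
    x ^ 11 * ‖u x‖ ^ 2 + x ^ 11 * ‖u' x‖ ^ 2) (μ := volume) hr'.1 hr'.2 le_rfl
    (by
      filter_upwards [ae_restrict_mem measurableSet_Ioc] with x hx
      have := hx.1.le
      positivity) ((i1 11).add i2)
  rw [intervalIntegral.integral_add (i1 11) i2] at b2
  simp only [ip_self] at b1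
  linarith

end Vale.Agent.P139Z.IntM
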